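import Mathlib

/-!
# S0085 (row 63): conditional frame "balanced gadget ⟹ statement"  (helper4)

If `g : (Fin m → Bool) → Bool` is balanced, has all Fourier–Walsh coefficients of order `> e` equal to
zero and the sum `W` of its singleton coefficients satisfies `0 < W` and `e < W ^ 2`, then the conclusion
of S0085 holds for every `C > 0` (iterated composition: `W` and the degree bound are multiplicative).
No gadget is provided here: this file proves nothing about the row by itself.
-/

set_option autoImplicit false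

namespace Crest.Agent.Helper4.S0085

open Finset

/-- Sign of a Boolean (`true ↦ 1`, `false ↦ -1`). -/
def sg (b : Bool) : ℝ := if b then 1 else -1

/-- Unnormalised Fourier–Walsh coefficient of `f` at `S`. -/
def fc {ι : Type} [Fintype ι] [DecidableEq ι] (f : (ι → Bool) → Bool) (S : Finset ι) : ℝ :=
  ∑ x : ι → Bool, sg (f x) * ∏ i ∈ S, sg (x i)

lemma sum_prod_pi {α γ : Type} [Fintype α] [DecidableEq α] [Fintype γ] (h : α → γ → ℝ) :
    ∑ x : α → γ, ∏ a, h a (x a) = ∏ a, ∑ z, h a z := by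
  rw [Finset.prod_univ_sum]
  simp [Fintype.piFinset_univ]

lemma char_sum {β : Type} [Fintype β] [DecidableEq β] (T : Finset β) :
    ∑ z : β → Bool, ∏ i ∈ T, sg (z i) = if T = ∅ then (2:ℝ) ^ Fintype.card β else 0 := by
  have h1 : ∀ z : β → Bool, ∏ i ∈ T, sg (z i) = ∏ i, (if i ∈ T then sg (z i) else 1) := by
    intro z
    rw [Finset.prod_ite_mem, Finset.univ_inter]
  simp_rw [h1]
  rw [sum_prod_pi (fun i b => if i ∈ T then sg b else 1)]
  have h2 : ∀ i, ∑ b : Bool, (if i ∈ T then sg b else (1:ℝ)) = if i ∈ T then 0 else 2 := by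
    intro i
    by_cases hi : i ∈ T
    · simp [hi, sg]
    · simp [hi]
  simp_rw [h2]
  by_cases hT : T = ∅
  · subst hT; simp
  · obtain ⟨i, hi⟩ := Finset.nonempty_iff_ne_empty.mpr hT
    rw [if_neg hT]
    exact Finset.prod_eq_zero (Finset.mem_univ i) (by simp [hi])

/-- Section of a set of pairs. -/
def sec {α β : Type} [Fintype β] [DecidableEq α] [DecidableEq β] (S : Finset (α × β)) (a : α) :
    Finset β :=
  Finset.univ.filter (fun b => (a, b) ∈ S)

lemma prod_sec {α β : Type} [Fintype α] [Fintype β] [DecidableEq α] [DecidableEq β]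
    (S : Finset (α × β)) (h : α × β → ℝ) :
    ∏ p ∈ S, h p = ∏ a, ∏ b ∈ sec S a, h (a, b) :=
  Finset.prod_finset_product S Finset.univ (sec S) (by intro p; simp [sec])

lemma card_sec {α β : Type} [Fintype α] [Fintype β] [DecidableEq α] [DecidableEq β]
    (S : Finset (α × β)) : S.card = ∑ a, (sec S a).card := by
  rw [Finset.card_eq_sum_ones,
    Finset.sum_finset_product S Finset.univ (sec S) (by intro p; simp [sec])]
  simp

/-- Composition `g ∘ (F, …, F)` on disjoint blocks of variables. -/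
def comp {α β : Type} (g : (α → Bool) → Bool) (F : (β → Bool) → Bool) : (α × β → Bool) → Bool :=
  fun x => g (fun a => F (fun b => x (a, b)))

lemma sg_select {α : Type} [Fintype α] [DecidableEq α] (G : (α → Bool) → ℝ) (y₀ : α → Bool) :
    ∑ y : α → Bool, G y * ∏ a, ((1 + sg (y a) * sg (y₀ a)) / 2) = G y₀ := by
  have h : ∀ y : α → Bool, ∏ a, ((1 + sg (y a) * sg (y₀ a)) / 2) = if y = y₀ then 1 else 0 := by
    intro y
    have h' : ∀ a, ((1 + sg (y a) * sg (y₀ a)) / 2) = if y a = y₀ a then (1:ℝ) else 0 := by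
      intro a
      cases y a <;> cases y₀ a <;> simp [sg]
    simp_rw [h']
    rw [Finset.prod_boole]
    simp [funext_iff]
  simp_rw [h]
  simp

/-- Product formula for the coefficients of a composition (inner function balanced). -/
theorem fc_comp {α β : Type} [Fintype α] [DecidableEq α] [Fintype β] [DecidableEq β]
    (g : (α → Bool) → Bool) (F : (β → Bool) → Bool) (hF : fc F ∅ = 0) (S : Finset (α × β)) :
    fc (comp g F) S =
      (∏ a ∈ Finset.univ.filter (fun a => sec S a = ∅), ((2:ℝ) ^ Fintype.card β / 2)) *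
      (∏ a ∈ Finset.univ.filter (fun a => ¬ sec S a = ∅), (fc F (sec S a) / 2)) *
      fc g (Finset.univ.filter (fun a => ¬ sec S a = ∅)) := by
  have e1 : fc (comp g F) S =
      ∑ x' : α → β → Bool, sg (g (fun a => F (x' a))) * ∏ a, ∏ b ∈ sec S a, sg (x' a b) := by
    unfold fc
    rw [← (Equiv.curry α β Bool).symm.sum_comp]
    refine Finset.sum_congr rfl (fun x' _ => ?_)
    rw [prod_sec]
    rfl
  have e2 : ∀ x' : α → β → Bool, sg (g (fun a => F (x' a))) =
      ∑ y : α → Bool, sg (g y) * ∏ a, ((1 + sg (y a) * sg (F (x' a))) / 2) := by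
    intro x'
    exact (sg_select (fun y => sg (g y)) (fun a => F (x' a))).symm
  have e3 : ∀ (y : α → Bool) (a : α),
      ∑ z : β → Bool, ((1 + sg (y a) * sg (F z)) / 2) * ∏ b ∈ sec S a, sg (z b) =
        if sec S a = ∅ then (2:ℝ) ^ Fintype.card β / 2 else sg (y a) * (fc F (sec S a) / 2) := by
    intro y a
    have h : ∀ z : β → Bool, ((1 + sg (y a) * sg (F z)) / 2) * ∏ b ∈ sec S a, sg (z b) =
        (∏ b ∈ sec S a, sg (z b)) / 2 + sg (y a) / 2 * (sg (F z) * ∏ b ∈ sec S a, sg (z b)) := by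
      intro z; ring
    simp_rw [h]
    rw [Finset.sum_add_distrib, ← Finset.sum_div, ← Finset.mul_sum, char_sum]
    by_cases hs : sec S a = ∅
    · rw [if_pos hs, if_pos hs]
      have h0 : ∑ z : β → Bool, sg (F z) * ∏ b ∈ sec S a, sg (z b) = 0 := by
        rw [hs]; exact hF
      rw [h0]; ring
    · rw [if_neg hs, if_neg hs]
      unfold fc
      ring
  have e4 : ∀ x' : α → β → Bool,
      (∑ y : α → Bool, sg (g y) * ∏ a, ((1 + sg (y a) * sg (F (x' a))) / 2)) *
        ∏ a, ∏ b ∈ sec S a, sg (x' a b) =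
      ∑ y : α → Bool, sg (g y) *
        ∏ a, (((1 + sg (y a) * sg (F (x' a))) / 2) * ∏ b ∈ sec S a, sg (x' a b)) := by
    intro x'
    rw [Finset.sum_mul]
    refine Finset.sum_congr rfl (fun y _ => ?_)
    rw [Finset.prod_mul_distrib]; ring
  have e5 : ∀ y : α → Bool,
      ∑ x' : α → β → Bool,
        ∏ a, (((1 + sg (y a) * sg (F (x' a))) / 2) * ∏ b ∈ sec S a, sg (x' a b)) =
      (∏ a ∈ Finset.univ.filter (fun a => sec S a = ∅), ((2:ℝ) ^ Fintype.card β / 2)) *
      (∏ a ∈ Finset.univ.filter (fun a => ¬ sec S a = ∅), (fc F (sec S a) / 2)) *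
      ∏ a ∈ Finset.univ.filter (fun a => ¬ sec S a = ∅), sg (y a) := by
    intro y
    rw [sum_prod_pi (fun a z => ((1 + sg (y a) * sg (F z)) / 2) * ∏ b ∈ sec S a, sg (z b))]
    simp_rw [e3 y]
    rw [Finset.prod_ite, Finset.prod_mul_distrib]
    ring
  rw [e1]
  simp_rw [e2, e4]
  rw [Finset.sum_comm]
  simp_rw [← Finset.mul_sum, e5]
  rw [show fc g (Finset.univ.filter (fun a => ¬ sec S a = ∅)) =
      ∑ y : α → Bool, sg (g y) * ∏ a ∈ Finset.univ.filter (fun a => ¬ sec S a = ∅), sg (y a) from rfl,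
    Finset.mul_sum]
  refine Finset.sum_congr rfl (fun y _ => ?_)
  ring

/-- `Good F d w`: `F` is balanced, all coefficients of order `> d` vanish, and the normalised sum of
the singleton coefficients is `w`. -/
def Good {ι : Type} [Fintype ι] [DecidableEq ι] (F : (ι → Bool) → Bool) (d : ℕ) (w : ℝ) : Prop :=
  fc F ∅ = 0 ∧ (∀ S : Finset ι, d < S.card → fc F S = 0) ∧
    ∑ i, fc F {i} / (2:ℝ) ^ Fintype.card ι = w

lemma sec_singleton {α β : Type} [Fintype β] [DecidableEq α] [DecidableEq β] (a₀ a : α) (b₀ : β) :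
    sec ({(a₀, b₀)} : Finset (α × β)) a = if a = a₀ then {b₀} else ∅ := by
  ext b
  by_cases h : a = a₀
  · simp [sec, h]
  · simp [sec, h]

lemma fc_comp_singleton {α β : Type} [Fintype α] [DecidableEq α] [Fintype β] [DecidableEq β]
    (g : (α → Bool) → Bool) (F : (β → Bool) → Bool) (hF : fc F ∅ = 0) (a₀ : α) (b₀ : β) :
    fc (comp g F) {(a₀, b₀)} =
      ((2:ℝ) ^ Fintype.card β / 2) ^ (Fintype.card α - 1) * (fc F {b₀} / 2) * fc g {a₀} := by
  rw [fc_comp g F hF]
  have hA : Finset.univ.filter (fun a => ¬ sec ({(a₀, b₀)} : Finset (α × β)) a = ∅) = {a₀} := by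
    ext a
    by_cases h : a = a₀
    · simp [sec_singleton, h]
    · simp [sec_singleton, h]
  have hB : Finset.univ.filter (fun a => sec ({(a₀, b₀)} : Finset (α × β)) a = ∅) =
      Finset.univ.erase a₀ := by
    ext a
    by_cases h : a = a₀
    · simp [sec_singleton, h]
    · simp [sec_singleton, h]
  rw [hA, hB, Finset.prod_const, Finset.prod_singleton,
    Finset.card_erase_of_mem (Finset.mem_univ _), Finset.card_univ, sec_singleton, if_pos rfl]

theorem comp_good {α β : Type} [Fintype α] [DecidableEq α] [Fintype β] [DecidableEq β]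
    {g : (α → Bool) → Bool} {F : (β → Bool) → Bool} {e d : ℕ} {W w : ℝ}
    (hg : Good g e W) (hF : Good F d w) : Good (comp g F) (e * d) (W * w) := by
  obtain ⟨hg0, hgd, hgW⟩ := hg
  obtain ⟨hF0, hFd, hFw⟩ := hF
  refine ⟨?_, ?_, ?_⟩
  · rw [fc_comp g F hF0]
    have hE : Finset.univ.filter (fun a => ¬ sec (∅ : Finset (α × β)) a = ∅) = ∅ := by
      simp [sec]
    rw [hE, hg0, mul_zero]
  · intro S hS
    rw [fc_comp g F hF0]
    by_cases hAe : e < (Finset.univ.filter (fun a => ¬ sec S a = ∅)).card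
    · rw [hgd _ hAe, mul_zero]
    · have hex : ∃ a ∈ Finset.univ.filter (fun a => ¬ sec S a = ∅), d < (sec S a).card := by
        by_contra hcon0
        have hcon : ∀ a ∈ Finset.univ.filter (fun a => ¬ sec S a = ∅), (sec S a).card ≤ d :=
          fun a ha => not_lt.mp (fun h => hcon0 ⟨a, ha, h⟩)
        have h1 : S.card = ∑ a ∈ Finset.univ.filter (fun a => ¬ sec S a = ∅), (sec S a).card := by
          rw [card_sec S]
          symm
          apply Finset.sum_subset (Finset.subset_univ _)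
          intro a _ ha
          have ha' : sec S a = ∅ := by simpa using ha
          simp [ha']
        have h2 : ∑ a ∈ Finset.univ.filter (fun a => ¬ sec S a = ∅), (sec S a).card ≤
            ∑ _a ∈ Finset.univ.filter (fun a => ¬ sec S a = ∅), d := Finset.sum_le_sum hcon
        rw [Finset.sum_const, smul_eq_mul] at h2
        have h3 : (Finset.univ.filter (fun a => ¬ sec S a = ∅)).card * d ≤ e * d :=
          Nat.mul_le_mul_right d (not_lt.mp hAe)
        omega
      obtain ⟨a, haA, had⟩ := hex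
      have hz : ∏ a ∈ Finset.univ.filter (fun a => ¬ sec S a = ∅), (fc F (sec S a) / 2) = 0 :=
        Finset.prod_eq_zero haA (by rw [hFd _ had]; simp)
      rw [hz, mul_zero, zero_mul]
  · rw [Fintype.sum_prod_type, ← hgW, ← hFw, Finset.sum_mul_sum]
    refine Finset.sum_congr rfl (fun a _ => Finset.sum_congr rfl (fun b _ => ?_))
    rw [fc_comp_singleton g F hF0, Fintype.card_prod]
    have : Nonempty α := ⟨a⟩
    obtain ⟨n, hn⟩ : ∃ n, Fintype.card α = n + 1 :=
      Nat.exists_eq_succ_of_ne_zero Fintype.card_ne_zero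
    rw [hn, Nat.add_sub_cancel, pow_mul', div_pow]
    have hN : (0:ℝ) < (2:ℝ) ^ Fintype.card β := by positivity
    field_simp
    ring

theorem iterate_good {m e : ℕ} {g : (Fin m → Bool) → Bool} {W : ℝ} (hg : Good g e W) :
    ∀ k : ℕ, ∃ (ι : Type) (_ : Fintype ι) (_ : DecidableEq ι) (F : (ι → Bool) → Bool),
      Good F (e ^ (k + 1)) (W ^ (k + 1)) := by
  intro k
  induction k with
  | zero => exact ⟨Fin m, inferInstance, inferInstance, g, by simpa using hg⟩
  | succ k ih =>
    obtain ⟨ι, hι1, hι2, F, hF⟩ := ih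
    refine ⟨Fin m × ι, inferInstance, inferInstance, comp g F, ?_⟩
    have h := comp_good hg hF
    rw [pow_succ' e (k + 1), pow_succ' W (k + 1)]
    exact h

lemma sg_def (b : Bool) : (if b then (1:ℝ) else -1) = sg b := rfl

/-- Transport of a good function on a finite index type to `Fin n`, in the raw form of the statement. -/
theorem transfer {ι : Type} [Fintype ι] [DecidableEq ι] (F : (ι → Bool) → Bool) (d : ℕ) (w : ℝ)
    (hF : Good F d w) :
    ∃ f : (Fin (Fintype.card ι) → Bool) → Bool,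
      (∃ x y, f x ≠ f y) ∧
      (∀ S : Finset (Fin (Fintype.card ι)), d < S.card →
        ∑ x : Fin (Fintype.card ι) → Bool,
          ((if f x then (1 : ℝ) else -1) * ∏ i ∈ S, (if x i then (1 : ℝ) else -1)) = 0) ∧
      w = ∑ i : Fin (Fintype.card ι),
        (∑ x : Fin (Fintype.card ι) → Bool,
          ((if f x then (1 : ℝ) else -1) * (if x i then (1 : ℝ) else -1))) /
            2 ^ (Fintype.card ι) := by
  obtain ⟨hF0, hFd, hFw⟩ := hF
  let e : ι ≃ Fin (Fintype.card ι) := Fintype.equivFin ι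
  let f : (Fin (Fintype.card ι) → Bool) → Bool := fun x => F (fun j => x (e j))
  have T : ∀ S : Finset (Fin (Fintype.card ι)),
      ∑ x : Fin (Fintype.card ι) → Bool, sg (f x) * ∏ i ∈ S, sg (x i) =
        fc F (S.map e.symm.toEmbedding) := by
    intro S
    unfold fc
    rw [← (Equiv.arrowCongr e (Equiv.refl Bool)).sum_comp]
    refine Finset.sum_congr rfl (fun z _ => ?_)
    rw [Finset.prod_map]
    have h1 : f ((Equiv.arrowCongr e (Equiv.refl Bool)) z) = F z := by
      simp [f, Equiv.arrowCongr]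
    rw [h1]
    rfl
  refine ⟨f, ?_, ?_, ?_⟩
  · by_contra hcon
    have hc : ∀ x y, f x = f y := fun x y => by
      by_contra h; exact hcon ⟨x, y, h⟩
    have h0 := T ∅
    rw [Finset.map_empty, hF0] at h0
    have h1 : ∑ x : Fin (Fintype.card ι) → Bool, sg (f x) * ∏ i ∈ (∅ : Finset (Fin (Fintype.card ι))), sg (x i)
        = ∑ _x : Fin (Fintype.card ι) → Bool, sg (f (fun _ => true)) := by
      refine Finset.sum_congr rfl (fun x _ => ?_)
      rw [Finset.prod_empty, mul_one, hc x (fun _ => true)]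
    rw [h1, Finset.sum_const, Finset.card_univ, nsmul_eq_mul] at h0
    have h2 : sg (f (fun _ => true)) ≠ 0 := by
      unfold sg; split_ifs <;> norm_num
    have h3 : ((Fintype.card (Fin (Fintype.card ι) → Bool) : ℕ) : ℝ) ≠ 0 := by
      exact_mod_cast Fintype.card_ne_zero
    exact (mul_ne_zero h3 h2) h0
  · intro S hS
    simp only [sg_def]
    rw [T S]
    exact hFd _ (by rw [Finset.card_map]; exact hS)
  · simp only [sg_def]
    rw [← hFw, ← e.symm.sum_comp]
    refine Finset.sum_congr rfl (fun i _ => ?_)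
    have h := T {i}
    rw [Finset.map_singleton] at h
    simp only [Finset.prod_singleton] at h
    rw [h]
    rfl

/-- **Conditional frame.**  A balanced gadget `g` with degree bound `e` and level-one sum `W`,
`0 < W`, `e < W ^ 2`, gives the conclusion of S0085 for every `C > 0`. -/
theorem s0085_of_gadget (m e : ℕ) (g : (Fin m → Bool) → Bool) (W : ℝ)
    (hg : Good g e W) (hWpos : 0 < W) (hW : (e:ℝ) < W ^ 2) (C : ℝ) (hC : 0 < C) :
    ∃ n : ℕ, ∃ f : (Fin n → Bool) → Bool, ∃ d : ℕ,
      (∃ x y, f x ≠ f y) ∧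
      (∀ S : Finset (Fin n), d < S.card →
        ∑ x : Fin n → Bool, ((if f x then (1 : ℝ) else -1) * ∏ i ∈ S, (if x i then (1 : ℝ) else -1)) = 0) ∧
      C * Real.sqrt d <
        ∑ i : Fin n, (∑ x : Fin n → Bool, ((if f x then (1 : ℝ) else -1) * (if x i then (1 : ℝ) else -1))) / 2 ^ n := by
  -- choose the number of compositions
  have hk : ∃ k : ℕ, C ^ 2 * (e:ℝ) ^ (k + 1) < (W ^ (k + 1)) ^ 2 := by
    rcases Nat.eq_zero_or_pos e with he | he
    · refine ⟨0, ?_⟩
      subst he
      simp only [Nat.cast_zero, zero_add, pow_one, mul_zero]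
      positivity
    · have he' : (0:ℝ) < e := by exact_mod_cast he
      have hr : 1 < W ^ 2 / e := by rw [lt_div_iff₀ he']; linarith
      obtain ⟨n, hn⟩ := pow_unbounded_of_one_lt (C ^ 2) hr
      refine ⟨n, ?_⟩
      have h1 : C ^ 2 < (W ^ 2 / e) ^ (n + 1) := by
        have : (W ^ 2 / e) ^ n ≤ (W ^ 2 / e) ^ (n + 1) :=
          pow_le_pow_right₀ hr.le (Nat.le_succ n)
        linarith
      rw [div_pow, lt_div_iff₀ (by positivity)] at h1
      calc C ^ 2 * (e:ℝ) ^ (n + 1) < (W ^ 2) ^ (n + 1) := h1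
        _ = (W ^ (n + 1)) ^ 2 := by ring
  obtain ⟨k, hk⟩ := hk
  obtain ⟨ι, hι1, hι2, F, hF⟩ := iterate_good hg k
  obtain ⟨f, h1, h2, h3⟩ := transfer F _ _ hF
  refine ⟨Fintype.card ι, f, e ^ (k + 1), h1, h2, ?_⟩
  rw [← h3]
  have hWk : 0 < W ^ (k + 1) := by positivity
  have h4 : Real.sqrt ((e ^ (k + 1) : ℕ) : ℝ) < W ^ (k + 1) / C := by
    rw [Real.sqrt_lt' (by positivity)]
    rw [div_pow, lt_div_iff₀ (by positivity)]
    push_cast
    linarith
  calc C * Real.sqrt ((e ^ (k + 1) : ℕ) : ℝ) < C * (W ^ (k + 1) / C) := by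
        exact mul_lt_mul_of_pos_left h4 hC
    _ = W ^ (k + 1) := by field_simp

/-- The same frame with the gadget's three properties stated in the raw form of the statement
(no auxiliary definitions): a gadget provider only has to prove `hbal`, `hdeg`, `hWpos`, `hW`. -/
theorem s0085_of_raw_gadget (m e : ℕ) (g : (Fin m → Bool) → Bool)
    (hbal : ∑ x : Fin m → Bool, (if g x then (1 : ℝ) else -1) = 0)
    (hdeg : ∀ S : Finset (Fin m), e < S.card →
      ∑ x : Fin m → Bool,
        ((if g x then (1 : ℝ) else -1) * ∏ i ∈ S, (if x i then (1 : ℝ) else -1)) = 0)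
    (hWpos : 0 < ∑ i : Fin m,
      (∑ x : Fin m → Bool, ((if g x then (1 : ℝ) else -1) * (if x i then (1 : ℝ) else -1))) / 2 ^ m)
    (hW : (e : ℝ) < (∑ i : Fin m,
      (∑ x : Fin m → Bool, ((if g x then (1 : ℝ) else -1) * (if x i then (1 : ℝ) else -1))) / 2 ^ m) ^ 2)
    (C : ℝ) (hC : 0 < C) :
    ∃ n : ℕ, ∃ f : (Fin n → Bool) → Bool, ∃ d : ℕ,
      (∃ x y, f x ≠ f y) ∧
      (∀ S : Finset (Fin n), d < S.card →
        ∑ x : Fin n → Bool, ((if f x then (1 : ℝ) else -1) * ∏ i ∈ S, (if x i then (1 : ℝ) else -1)) = 0) ∧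
      C * Real.sqrt d <
        ∑ i : Fin n, (∑ x : Fin n → Bool, ((if f x then (1 : ℝ) else -1) * (if x i then (1 : ℝ) else -1))) / 2 ^ n := by
  refine s0085_of_gadget m e g _ ⟨?_, ?_, ?_⟩ hWpos hW C hC
  · show ∑ x : Fin m → Bool, sg (g x) * ∏ i ∈ (∅ : Finset (Fin m)), sg (x i) = 0
    simp only [Finset.prod_empty, mul_one]
    exact hbal
  · intro S hS
    exact hdeg S hS
  · simp only [fc, Finset.prod_singleton, Fintype.card_fin]
    rfl

end Crest.Agent.Helper4.S0085
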