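import Crest.Agent.Helper4.S0085.Frame

/-!
# S0085 (row 63): a kernel-checkable verifier for a concrete gadget (helper4)

CONDITIONAL TOOL, imported by nothing.  A gadget on `m` variables is given by ONE natural number `N`
(its truth table: bit number `k = ∑ i, [x i] * 2 ^ (m - 1 - i)` of `N` is `1` iff `g x = true`, so
`x 0` is the most significant index bit).  `chk e W (wht (mk m N)) = true` is a closed Boolean
statement that the kernel can evaluate (`by decide +kernel`): a Walsh-Hadamard transform on a binary
tree whose leaves `(p, n)` stand for the integer `p - n`.  `s0085_of_table` turns such a check (with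
`0 < W` and `e * 4 ^ m < W ^ 2`) into the body of statement S0085.
-/

set_option autoImplicit false

namespace Crest.Agent.Helper4.S0085

open Finset

/-- binary tree; a leaf `(p, n)` stands for the integer `p - n` -/
inductive Tr where
  | leaf (p n : ℕ) : Tr
  | node (l r : Tr) : Tr

noncomputable def tadd : Tr → Tr → Tr :=
  @Tr.rec (fun _ => Tr → Tr)
    (fun p n t => @Tr.rec (fun _ => Tr) (fun p' n' => Tr.leaf (Nat.add p p') (Nat.add n n'))
      (fun _ _ _ _ => Tr.leaf 0 0) t)
    (fun _ _ ihl ihr t => @Tr.rec (fun _ => Tr) (fun _ _ => Tr.leaf 0 0)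
      (fun l' r' _ _ => Tr.node (ihl l') (ihr r')) t)

noncomputable def tsub : Tr → Tr → Tr :=
  @Tr.rec (fun _ => Tr → Tr)
    (fun p n t => @Tr.rec (fun _ => Tr) (fun p' n' => Tr.leaf (Nat.add p n') (Nat.add n p'))
      (fun _ _ _ _ => Tr.leaf 0 0) t)
    (fun _ _ ihl ihr t => @Tr.rec (fun _ => Tr) (fun _ _ => Tr.leaf 0 0)
      (fun l' r' _ _ => Tr.node (ihl l') (ihr r')) t)

noncomputable def wcomb (a b : Tr) : Tr := Tr.node (tadd a b) (tsub a b)

/-- Walsh-Hadamard transform: left subtree = sum, right subtree = (right part) - (left part) -/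
noncomputable def wht : Tr → Tr :=
  @Tr.rec (fun _ => Tr) (fun p n => Tr.leaf p n) (fun _ _ ihl ihr => wcomb ihr ihl)

/-- every leaf reached through more than `e` right turns (counted from `c`) is zero -/
noncomputable def hi (e : ℕ) : Tr → ℕ → Bool :=
  @Tr.rec (fun _ => ℕ → Bool) (fun p n c => Nat.ble c e || Nat.beq p n)
    (fun _ _ ihl ihr c => ihl c && ihr (Nat.succ c))

noncomputable def zp : Tr → ℕ := @Tr.rec (fun _ => ℕ) (fun p _ => p) (fun _ _ ihl _ => ihl)
noncomputable def zn : Tr → ℕ := @Tr.rec (fun _ => ℕ) (fun _ n => n) (fun _ _ ihl _ => ihl)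
noncomputable def l1p : Tr → ℕ :=
  @Tr.rec (fun _ => ℕ) (fun _ _ => 0) (fun _ r ihl _ => Nat.add (zp r) ihl)
noncomputable def l1n : Tr → ℕ :=
  @Tr.rec (fun _ => ℕ) (fun _ _ => 0) (fun _ r ihl _ => Nat.add (zn r) ihl)

/-- the tree of the truth table `N` (low half of the bits = left subtree) -/
noncomputable def mk : ℕ → ℕ → Tr :=
  @Nat.rec (fun _ => ℕ → Tr) (fun N => Tr.leaf (N % 2) (1 - N % 2))
    (fun m ih N => Tr.node (ih (N % 2 ^ 2 ^ m)) (ih (N / 2 ^ 2 ^ m)))

/-- the closed check: balanced, no coefficient above level `e`, level-1 sum `= W` -/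
noncomputable def chk (e W : ℕ) (w : Tr) : Bool :=
  Nat.beq (zp w) (zn w) && (hi e w 0 && Nat.beq (l1p w) (Nat.add (l1n w) W))

theorem tadd_leaf (p n p' n' : ℕ) :
    tadd (.leaf p n) (.leaf p' n') = .leaf (p + p') (n + n') := rfl
theorem tadd_node (l r l' r' : Tr) :
    tadd (.node l r) (.node l' r') = .node (tadd l l') (tadd r r') := rfl
theorem tsub_leaf (p n p' n' : ℕ) :
    tsub (.leaf p n) (.leaf p' n') = .leaf (p + n') (n + p') := rfl
theorem tsub_node (l r l' r' : Tr) :
    tsub (.node l r) (.node l' r') = .node (tsub l l') (tsub r r') := rfl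
theorem wht_leaf (p n : ℕ) : wht (.leaf p n) = .leaf p n := rfl
theorem wht_node (l r : Tr) :
    wht (.node l r) = .node (tadd (wht r) (wht l)) (tsub (wht r) (wht l)) := rfl
theorem hi_leaf (e p n c : ℕ) : hi e (.leaf p n) c = (Nat.ble c e || Nat.beq p n) := rfl
theorem hi_node (e : ℕ) (l r : Tr) (c : ℕ) :
    hi e (.node l r) c = (hi e l c && hi e r (c + 1)) := rfl
theorem zp_leaf (p n : ℕ) : zp (.leaf p n) = p := rfl
theorem zp_node (l r : Tr) : zp (.node l r) = zp l := rfl
theorem zn_leaf (p n : ℕ) : zn (.leaf p n) = n := rfl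
theorem zn_node (l r : Tr) : zn (.node l r) = zn l := rfl
theorem l1p_leaf (p n : ℕ) : l1p (.leaf p n) = 0 := rfl
theorem l1p_node (l r : Tr) : l1p (.node l r) = zp r + l1p l := rfl
theorem l1n_leaf (p n : ℕ) : l1n (.leaf p n) = 0 := rfl
theorem l1n_node (l r : Tr) : l1n (.node l r) = zn r + l1n l := rfl
theorem mk_zero (N : ℕ) : mk 0 N = .leaf (N % 2) (1 - N % 2) := rfl
theorem mk_succ (m N : ℕ) :
    mk (m + 1) N = .node (mk m (N % 2 ^ 2 ^ m)) (mk m (N / 2 ^ 2 ^ m)) := rfl

/-- complete tree of depth `m` -/
def wf : ℕ → Tr → Prop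
  | 0, .leaf _ _ => True
  | 0, .node _ _ => False
  | (_ + 1), .leaf _ _ => False
  | (m + 1), .node l r => wf m l ∧ wf m r

/-- the function `(Fin m → Bool) → ℤ` stored in a tree (`x 0` chooses the subtree: `true` = right) -/
def ev : (m : ℕ) → Tr → (Fin m → Bool) → ℤ
  | 0, .leaf p n, _ => (p : ℤ) - n
  | 0, .node _ _, _ => 0
  | (_ + 1), .leaf _ _, _ => 0
  | (m + 1), .node l r, x => if x 0 then ev m r (Fin.tail x) else ev m l (Fin.tail x)

theorem wf_tadd {m : ℕ} {a b : Tr} (ha : wf m a) (hb : wf m b) : wf m (tadd a b) := by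
  induction m generalizing a b with
  | zero =>
    cases a with
    | leaf p n =>
      cases b with
      | leaf p' n' => simp only [tadd_leaf, wf]
      | node l r => simp only [wf] at hb
    | node l r => simp only [wf] at ha
  | succ m ih =>
    cases a with
    | leaf p n => simp only [wf] at ha
    | node l r =>
      cases b with
      | leaf p' n' => simp only [wf] at hb
      | node l' r' =>
        simp only [wf] at ha hb
        simp only [tadd_node, wf]
        exact ⟨ih ha.1 hb.1, ih ha.2 hb.2⟩

theorem wf_tsub {m : ℕ} {a b : Tr} (ha : wf m a) (hb : wf m b) : wf m (tsub a b) := by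
  induction m generalizing a b with
  | zero =>
    cases a with
    | leaf p n =>
      cases b with
      | leaf p' n' => simp only [tsub_leaf, wf]
      | node l r => simp only [wf] at hb
    | node l r => simp only [wf] at ha
  | succ m ih =>
    cases a with
    | leaf p n => simp only [wf] at ha
    | node l r =>
      cases b with
      | leaf p' n' => simp only [wf] at hb
      | node l' r' =>
        simp only [wf] at ha hb
        simp only [tsub_node, wf]
        exact ⟨ih ha.1 hb.1, ih ha.2 hb.2⟩

theorem ev_tadd {m : ℕ} {a b : Tr} (ha : wf m a) (hb : wf m b) (x : Fin m → Bool) :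
    ev m (tadd a b) x = ev m a x + ev m b x := by
  induction m generalizing a b with
  | zero =>
    cases a with
    | leaf p n =>
      cases b with
      | leaf p' n' => simp only [tadd_leaf, ev]; push_cast; ring
      | node l r => simp only [wf] at hb
    | node l r => simp only [wf] at ha
  | succ m ih =>
    cases a with
    | leaf p n => simp only [wf] at ha
    | node l r =>
      cases b with
      | leaf p' n' => simp only [wf] at hb
      | node l' r' =>
        simp only [wf] at ha hb
        simp only [tadd_node, ev]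
        split_ifs
        · exact ih ha.2 hb.2 _
        · exact ih ha.1 hb.1 _

theorem ev_tsub {m : ℕ} {a b : Tr} (ha : wf m a) (hb : wf m b) (x : Fin m → Bool) :
    ev m (tsub a b) x = ev m a x - ev m b x := by
  induction m generalizing a b with
  | zero =>
    cases a with
    | leaf p n =>
      cases b with
      | leaf p' n' => simp only [tsub_leaf, ev]; push_cast; ring
      | node l r => simp only [wf] at hb
    | node l r => simp only [wf] at ha
  | succ m ih =>
    cases a with
    | leaf p n => simp only [wf] at ha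
    | node l r =>
      cases b with
      | leaf p' n' => simp only [wf] at hb
      | node l' r' =>
        simp only [wf] at ha hb
        simp only [tsub_node, ev]
        split_ifs
        · exact ih ha.2 hb.2 _
        · exact ih ha.1 hb.1 _

theorem wf_wht {m : ℕ} {t : Tr} (ht : wf m t) : wf m (wht t) := by
  induction m generalizing t with
  | zero =>
    cases t with
    | leaf p n => simp only [wht_leaf, wf]
    | node l r => simp only [wf] at ht
  | succ m ih =>
    cases t with
    | leaf p n => simp only [wf] at ht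
    | node l r =>
      simp only [wf] at ht
      simp only [wht_node, wf]
      exact ⟨wf_tadd (ih ht.2) (ih ht.1), wf_tsub (ih ht.2) (ih ht.1)⟩

/-- unnormalised Fourier-Walsh coefficient of `F` at the set `{i | s i}` -/
def co (m : ℕ) (F : (Fin m → Bool) → ℤ) (s : Fin m → Bool) : ℤ :=
  ∑ x : Fin m → Bool, F x * ∏ i : Fin m, (if s i then (if x i then (1 : ℤ) else -1) else 1)

/-- `(b, y) ↦ Fin.cons b y` as an equivalence -/
def consE (m : ℕ) : Bool × (Fin m → Bool) ≃ (Fin (m + 1) → Bool) := Fin.consEquiv (fun _ => Bool)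

theorem consE_apply (m : ℕ) (b : Bool) (y : Fin m → Bool) : consE m (b, y) = Fin.cons b y := rfl

theorem sum_cons {m : ℕ} (G : (Fin (m + 1) → Bool) → ℤ) :
    ∑ x : Fin (m + 1) → Bool, G x =
      ∑ y : Fin m → Bool, (G (Fin.cons true y) + G (Fin.cons false y)) := by
  rw [← (consE m).sum_comp G, Fintype.sum_prod_type, Fintype.sum_bool, ← Finset.sum_add_distrib]
  simp only [consE_apply]

theorem prod_cons {m : ℕ} (s : Fin (m + 1) → Bool) (b : Bool) (y : Fin m → Bool) :
    ∏ i : Fin (m + 1),
        (if s i then (if (Fin.cons b y : Fin (m + 1) → Bool) i then (1 : ℤ) else -1) else 1)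
      = (if s 0 then (if b then (1 : ℤ) else -1) else 1)
        * ∏ i : Fin m, (if Fin.tail s i then (if y i then (1 : ℤ) else -1) else 1) := by
  rw [Fin.prod_univ_succ]
  simp only [Fin.cons_zero, Fin.cons_succ]
  rfl

theorem co_succ {m : ℕ} (F : (Fin (m + 1) → Bool) → ℤ) (s : Fin (m + 1) → Bool) :
    co (m + 1) F s =
      if s 0 then co m (fun y => F (Fin.cons true y)) (Fin.tail s)
          - co m (fun y => F (Fin.cons false y)) (Fin.tail s)
      else co m (fun y => F (Fin.cons true y)) (Fin.tail s)
          + co m (fun y => F (Fin.cons false y)) (Fin.tail s) := by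
  unfold co
  rw [sum_cons]
  simp only [prod_cons]
  cases h : s 0
  · rw [if_neg (by simp), ← Finset.sum_add_distrib]
    refine Finset.sum_congr rfl (fun y _ => ?_)
    rw [if_neg (by simp), one_mul]
  · rw [if_pos rfl, ← Finset.sum_sub_distrib]
    refine Finset.sum_congr rfl (fun y _ => ?_)
    simp only [if_true, Bool.false_eq_true, if_false]
    ring

theorem ev_wht {m : ℕ} {t : Tr} (ht : wf m t) (s : Fin m → Bool) :
    ev m (wht t) s = co m (ev m t) s := by
  induction m generalizing t with
  | zero =>
    cases t with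
    | leaf p n => simp [wht_leaf, ev, co]
    | node l r => simp only [wf] at ht
  | succ m ih =>
    cases t with
    | leaf p n => simp only [wf] at ht
    | node l r =>
      simp only [wf] at ht
      rw [co_succ]
      have e1 : (fun y => ev (m + 1) (Tr.node l r) (Fin.cons true y)) = ev m r := by
        funext y; simp [ev, Fin.tail_cons]
      have e2 : (fun y => ev (m + 1) (Tr.node l r) (Fin.cons false y)) = ev m l := by
        funext y; simp [ev, Fin.tail_cons]
      rw [e1, e2, wht_node]
      simp only [ev]
      split_ifs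
      · rw [ev_tsub (wf_wht ht.2) (wf_wht ht.1), ih ht.2, ih ht.1]
      · rw [ev_tadd (wf_wht ht.2) (wf_wht ht.1), ih ht.2, ih ht.1]

/-- number of `true`s -/
def cnt (m : ℕ) (s : Fin m → Bool) : ℕ := ∑ i : Fin m, if s i then 1 else 0

theorem cnt_succ {m : ℕ} (s : Fin (m + 1) → Bool) :
    cnt (m + 1) s = (if s 0 then 1 else 0) + cnt m (Fin.tail s) := by
  unfold cnt
  rw [Fin.sum_univ_succ]
  rfl

theorem ev_of_hi {e m : ℕ} {t : Tr} (ht : wf m t) (c : ℕ) (h : hi e t c = true)
    (s : Fin m → Bool) (hs : e < c + cnt m s) : ev m t s = 0 := by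
  induction m generalizing t c with
  | zero =>
    cases t with
    | leaf p n =>
      simp only [hi_leaf, Bool.or_eq_true] at h
      have hc : cnt 0 s = 0 := by simp [cnt]
      rw [hc, Nat.add_zero] at hs
      rcases h with h | h
      · exact absurd (Nat.le_of_ble_eq_true h) (not_le.mpr hs)
      · have hpn : p = n := Nat.eq_of_beq_eq_true h
        simp [ev, hpn]
    | node l r => simp only [wf] at ht
  | succ m ih =>
    cases t with
    | leaf p n => simp only [wf] at ht
    | node l r =>
      simp only [wf] at ht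
      simp only [hi_node, Bool.and_eq_true] at h
      rw [cnt_succ] at hs
      simp only [ev]
      split_ifs with h0
      · rw [if_pos h0] at hs
        exact ih ht.2 (c + 1) h.2 (Fin.tail s) (by omega)
      · rw [if_neg h0] at hs
        exact ih ht.1 c h.1 (Fin.tail s) (by omega)

theorem ev_false {m : ℕ} {t : Tr} (ht : wf m t) :
    ev m t (fun _ => false) = (zp t : ℤ) - zn t := by
  induction m generalizing t with
  | zero =>
    cases t with
    | leaf p n => simp only [ev, zp_leaf, zn_leaf]
    | node l r => simp only [wf] at ht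
  | succ m ih =>
    cases t with
    | leaf p n => simp only [wf] at ht
    | node l r =>
      simp only [wf] at ht
      simp only [ev, zp_node, zn_node]
      rw [if_neg (by simp)]
      exact ih ht.1

theorem sum_single {m : ℕ} {t : Tr} (ht : wf m t) :
    ∑ i : Fin m, ev m t (fun j => decide (j = i)) = (l1p t : ℤ) - l1n t := by
  induction m generalizing t with
  | zero =>
    cases t with
    | leaf p n => simp [l1p_leaf, l1n_leaf]
    | node l r => simp only [wf] at ht
  | succ m ih =>
    cases t with
    | leaf p n => simp only [wf] at ht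
    | node l r =>
      simp only [wf] at ht
      rw [Fin.sum_univ_succ]
      have h0 : ev (m + 1) (Tr.node l r) (fun j => decide (j = 0)) = (zp r : ℤ) - zn r := by
        rw [← ev_false ht.2]
        simp only [ev]
        rw [if_pos (by simp)]
        rfl
      have hs : ∀ i : Fin m, ev (m + 1) (Tr.node l r) (fun j => decide (j = i.succ))
          = ev m l (fun j => decide (j = i)) := by
        intro i
        simp only [ev]
        rw [if_neg (by simpa using (Fin.succ_ne_zero i).symm)]
        congr 1
        funext j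
        simp [Fin.tail, Fin.succ_inj]
      rw [h0, Finset.sum_congr rfl (fun i _ => hs i), ih ht.1]
      simp only [l1p_node, l1n_node]
      push_cast
      ring

theorem wf_mk (m N : ℕ) : wf m (mk m N) := by
  induction m generalizing N with
  | zero => simp only [mk_zero, wf]
  | succ m ih =>
    simp only [mk_succ, wf]
    exact ⟨ih _, ih _⟩

theorem ev_mk (m N : ℕ) (x : Fin m → Bool) :
    ev m (mk m N) x = 1 ∨ ev m (mk m N) x = -1 := by
  induction m generalizing N with
  | zero =>
    simp only [mk_zero, ev]
    rcases Nat.mod_two_eq_zero_or_one N with h | h <;> simp [h]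
  | succ m ih =>
    simp only [mk_succ, ev]
    split_ifs
    · exact ih _ _
    · exact ih _ _

/-- the Boolean function with truth table `N` -/
noncomputable def gf (m N : ℕ) : (Fin m → Bool) → Bool :=
  fun x => decide (ev m (mk m N) x = 1)

theorem sg_gf (m N : ℕ) (x : Fin m → Bool) :
    (if gf m N x then (1 : ℝ) else -1) = ((ev m (mk m N) x : ℤ) : ℝ) := by
  unfold gf
  rcases ev_mk m N x with h | h
  · simp [h]
  · simp [h]

theorem raw_eq_co (m N : ℕ) (S : Finset (Fin m)) :
    ∑ x : Fin m → Bool,
        ((if gf m N x then (1 : ℝ) else -1) * ∏ i ∈ S, (if x i then (1 : ℝ) else -1))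
      = ((co m (ev m (mk m N)) (fun i => decide (i ∈ S)) : ℤ) : ℝ) := by
  unfold co
  push_cast
  refine Finset.sum_congr rfl (fun x _ => ?_)
  rw [sg_gf]
  congr 1
  rw [← Fintype.prod_ite_mem]
  refine Finset.prod_congr rfl (fun i _ => ?_)
  by_cases hi : i ∈ S <;> simp [hi]

/-- **From a kernel-checked truth table to the body of S0085.** -/
theorem s0085_of_table (m e N W : ℕ) (h : chk e W (wht (mk m N)) = true)
    (hWpos : 0 < W) (hW : e * 4 ^ m < W ^ 2) (C : ℝ) (hC : 0 < C) :
    ∃ n : ℕ, ∃ f : (Fin n → Bool) → Bool, ∃ d : ℕ,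
      (∃ x y, f x ≠ f y) ∧
      (∀ S : Finset (Fin n), d < S.card →
        ∑ x : Fin n → Bool, ((if f x then (1 : ℝ) else -1) * ∏ i ∈ S, (if x i then (1 : ℝ) else -1)) = 0) ∧
      C * Real.sqrt d <
        ∑ i : Fin n, (∑ x : Fin n → Bool, ((if f x then (1 : ℝ) else -1) * (if x i then (1 : ℝ) else -1))) / 2 ^ n := by
  have hwf := wf_wht (wf_mk m N)
  simp only [chk, Bool.and_eq_true] at h
  obtain ⟨hz, hh, hl⟩ := h
  have hz' : zp (wht (mk m N)) = zn (wht (mk m N)) := Nat.eq_of_beq_eq_true hz
  have hl' : l1p (wht (mk m N)) = l1n (wht (mk m N)) + W := Nat.eq_of_beq_eq_true hl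
  have key : ∀ s, co m (ev m (mk m N)) s = ev m (wht (mk m N)) s :=
    fun s => (ev_wht (wf_mk m N) s).symm
  have hsingle : ∀ i : Fin m,
      ∑ x : Fin m → Bool, ((if gf m N x then (1 : ℝ) else -1) * (if x i then (1 : ℝ) else -1))
        = ((ev m (wht (mk m N)) (fun j => decide (j = i)) : ℤ) : ℝ) := by
    intro i
    have h1 := raw_eq_co m N {i}
    simp only [Finset.prod_singleton, Finset.mem_singleton] at h1
    rw [h1, key]
  have hsum : ∑ i : Fin m,
      (∑ x : Fin m → Bool, ((if gf m N x then (1 : ℝ) else -1) * (if x i then (1 : ℝ) else -1))) / 2 ^ m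
        = (W : ℝ) / 2 ^ m := by
    rw [← Finset.sum_div]
    congr 1
    rw [Finset.sum_congr rfl (fun i _ => hsingle i), ← Int.cast_sum, sum_single hwf, hl']
    push_cast
    ring
  refine s0085_of_raw_gadget m e (gf m N) ?_ ?_ ?_ ?_ C hC
  · have h1 := raw_eq_co m N ∅
    simp only [Finset.prod_empty, mul_one] at h1
    rw [h1, key]
    have hfalse : (fun i : Fin m => decide (i ∈ (∅ : Finset (Fin m)))) = fun _ => false := by
      funext i; simp
    rw [hfalse, ev_false hwf, hz']
    simp
  · intro S hS
    rw [raw_eq_co, key]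
    have h0 : ev m (wht (mk m N)) (fun i => decide (i ∈ S)) = 0 := by
      apply ev_of_hi hwf 0 hh
      have hc : cnt m (fun i => decide (i ∈ S)) = S.card := by
        unfold cnt; simp
      omega
    simp [h0]
  · rw [hsum]
    positivity
  · rw [hsum, div_pow, lt_div_iff₀ (by positivity)]
    have h2 : ((e * 4 ^ m : ℕ) : ℝ) < ((W ^ 2 : ℕ) : ℝ) := by exact_mod_cast hW
    push_cast at h2
    calc (e : ℝ) * (2 ^ m) ^ 2 = e * 4 ^ m := by
          rw [← pow_mul, mul_comm m 2, pow_mul]; norm_num
      _ < (W : ℝ) ^ 2 := h2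

end Crest.Agent.Helper4.S0085
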